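import Mathlib

set_option autoImplicit false

namespace Crest.Agent.H4Cotype

open Finset

/-- smoothstep -/
def phi (u : ℝ) : ℝ := 3 * u ^ 2 - 2 * u ^ 3

lemma phi_one_sub (u : ℝ) : phi (1 - u) = 1 - phi u := by unfold phi; ring

lemma abs_phi_sub_le (u v : ℝ) (hu0 : 0 ≤ u) (hu1 : u ≤ 1) (hv0 : 0 ≤ v) (hv1 : v ≤ 1) :
    |phi u - phi v| ≤ 3 * ((u + v) * |u - v|) := by
  have h : phi u - phi v = (3 * (u + v) - 2 * (u ^ 2 + u * v + v ^ 2)) * (u - v) := by
    unfold phi; ring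
  rw [h, abs_mul]
  have h1 : 0 ≤ 3 * (u + v) - 2 * (u ^ 2 + u * v + v ^ 2) := by nlinarith
  have h2 : 3 * (u + v) - 2 * (u ^ 2 + u * v + v ^ 2) ≤ 3 * (u + v) := by nlinarith
  rw [abs_of_nonneg h1]
  have := abs_nonneg (u - v)
  nlinarith

lemma phi_le (u : ℝ) (hu0 : 0 ≤ u) (hu1 : u ≤ 1) : |phi u| ≤ 3 * u := by
  have := abs_phi_sub_le u 0 hu0 hu1 le_rfl zero_le_one
  simp only [phi, add_zero, sub_zero] at this ⊢
  have h0 : (3 * (0:ℝ) ^ 2 - 2 * 0 ^ 3) = 0 := by norm_num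
  rw [h0, sub_zero, abs_of_nonneg hu0] at this
  nlinarith

section core

variable {ι Ω : Type*} [Fintype ι] [DecidableEq ι] [Fintype Ω]

/-- One-step Bellman inequality. -/
lemma bellman (c : Ω → ℝ) (hc : ∀ ω, 0 ≤ c ω) (q : ι → ℝ) (hq : ∀ j, 0 ≤ q j) (q0 : ℝ)
    (hq0 : 0 ≤ q0) (hsum : q0 + ∑ j, q j = 1) (u g : Ω → ℝ) (v : ι → Ω → ℝ)
    (hu0 : ∀ ω, 0 ≤ u ω) (hu1 : ∀ ω, u ω ≤ 1) (hv0 : ∀ j ω, 0 ≤ v j ω) (hv1 : ∀ j ω, v j ω ≤ 1)
    (hmart : ∀ ω, u ω = q0 * g ω + ∑ j, q j * v j ω) :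
    ∑ j, q j * (∑ ω, c ω * |phi (u ω) - phi (v j ω)|) ^ 2 ≤
      18 * (q0 * (∑ ω, c ω * g ω ^ 2) ^ 2 + ∑ j, q j * (∑ ω, c ω * v j ω ^ 2) ^ 2
        - (∑ ω, c ω * u ω ^ 2) ^ 2) := by
  set K := ∑ ω, c ω * u ω ^ 2 with hK
  have hK0 : 0 ≤ K := sum_nonneg fun ω _ => mul_nonneg (hc ω) (sq_nonneg _)
  let I : (Ω → ℝ) → ℝ := fun z => ∑ ω, c ω * (u ω * (z ω - u ω))
  let D : (Ω → ℝ) → ℝ := fun z => ∑ ω, c ω * (z ω - u ω) ^ 2
  have hD0 : ∀ z, 0 ≤ D z := fun z => sum_nonneg fun ω _ => mul_nonneg (hc ω) (sq_nonneg _)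
  have hKz : ∀ z : Ω → ℝ, ∑ ω, c ω * z ω ^ 2 = K + 2 * I z + D z := by
    intro z
    simp only [hK, I, D, mul_sum, ← sum_add_distrib]
    exact sum_congr rfl fun ω _ => by ring
  have hI : q0 * I g + ∑ j, q j * I (v j) = 0 := by
    simp only [I, mul_sum]
    rw [sum_comm, ← sum_add_distrib]
    refine sum_eq_zero fun ω _ => ?_
    have h1 : ∑ j, q j * (c ω * (u ω * (v j ω - u ω))) =
        c ω * u ω * (∑ j, q j * v j ω - (∑ j, q j) * u ω) := by
      rw [sum_mul, ← sum_sub_distrib, mul_sum]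
      exact sum_congr rfl fun j _ => by ring
    rw [h1]
    have h2 : ∑ j, q j = 1 - q0 := by linarith
    have h3 : ∑ j, q j * v j ω = u ω - q0 * g ω := by linarith [hmart ω]
    rw [h2, h3]; ring
  have hstep : ∀ j, (∑ ω, c ω * |phi (u ω) - phi (v j ω)|) ^ 2 ≤
      18 * ((2 * I (v j) + D (v j)) ^ 2 + 2 * K * D (v j)) := by
    intro j
    have h1 : ∑ ω, c ω * |phi (u ω) - phi (v j ω)| ≤
        3 * ∑ ω, c ω * ((u ω + v j ω) * |u ω - v j ω|) := by
      rw [mul_sum]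
      refine sum_le_sum fun ω _ => ?_
      have := abs_phi_sub_le (u ω) (v j ω) (hu0 ω) (hu1 ω) (hv0 j ω) (hv1 j ω)
      have := hc ω
      nlinarith
    have h2 : (∑ ω, c ω * ((u ω + v j ω) * |u ω - v j ω|)) ^ 2 ≤
        (∑ ω, c ω * (u ω + v j ω) ^ 2) * (∑ ω, c ω * (v j ω - u ω) ^ 2) := by
      refine sum_sq_le_sum_mul_sum_of_sq_eq_mul _ (fun ω _ => mul_nonneg (hc ω) (sq_nonneg _))
        (fun ω _ => mul_nonneg (hc ω) (sq_nonneg _)) fun ω _ => ?_
      rw [mul_pow, mul_pow, sq_abs]; ring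
    have h3 : ∑ ω, c ω * (u ω + v j ω) ^ 2 = 4 * K + 4 * I (v j) + D (v j) := by
      simp only [hK, I, D, mul_sum, ← sum_add_distrib]
      exact sum_congr rfl fun ω _ => by ring
    rw [h3] at h2
    have h0 : 0 ≤ ∑ ω, c ω * |phi (u ω) - phi (v j ω)| :=
      sum_nonneg fun ω _ => mul_nonneg (hc ω) (abs_nonneg _)
    have h4 := pow_le_pow_left₀ h0 h1 2
    have h5 : (4 * K + 4 * I (v j) + D (v j)) * D (v j) ≤
        2 * ((2 * I (v j) + D (v j)) ^ 2 + 2 * K * D (v j)) := by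
      nlinarith [sq_nonneg (I (v j)), sq_nonneg (2 * I (v j) + D (v j))]
    change _ ≤ _ * D (v j) at h2
    nlinarith
  have hfin : ∑ j, q j * (∑ ω, c ω * |phi (u ω) - phi (v j ω)|) ^ 2 ≤
      ∑ j, q j * (18 * ((2 * I (v j) + D (v j)) ^ 2 + 2 * K * D (v j))) :=
    sum_le_sum fun j _ => mul_le_mul_of_nonneg_left (hstep j) (hq j)
  refine hfin.trans ?_
  simp only [hKz]
  have e1 : ∑ j, q j * (K + 2 * I (v j) + D (v j)) ^ 2 =
      (∑ j, q j) * K ^ 2 + 4 * K * ∑ j, q j * I (v j) +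
        ∑ j, q j * ((2 * I (v j) + D (v j)) ^ 2 + 2 * K * D (v j)) := by
    rw [sum_mul, mul_sum, ← sum_add_distrib, ← sum_add_distrib]
    exact sum_congr rfl fun j _ => by ring
  have e2 : ∑ j, q j * (18 * ((2 * I (v j) + D (v j)) ^ 2 + 2 * K * D (v j))) =
      18 * ∑ j, q j * ((2 * I (v j) + D (v j)) ^ 2 + 2 * K * D (v j)) := by
    rw [mul_sum univ _ (18 : ℝ)]; exact sum_congr rfl fun j _ => by ring
  rw [e1, e2]
  have h2 : ∑ j, q j = 1 - q0 := by linarith
  have h3 : ∑ j, q j * I (v j) = - (q0 * I g) := by linarith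
  rw [h2, h3]
  have h4 : 0 ≤ q0 * ((2 * I g + D g) ^ 2 + 2 * K * D g) :=
    mul_nonneg hq0 (add_nonneg (sq_nonneg _) (mul_nonneg (by linarith) (hD0 g)))
  nlinarith

/-- core estimates for the resolvent matrix `B`. -/
lemma core (c : Ω → ℝ) (hc : ∀ ω, 0 ≤ c ω) (f : ι → Ω → ℝ) (hf : ∀ i ω, f i ω = 0 ∨ f i ω = 1)
    (w : ι → ℝ) (hw : ∀ i, 0 ≤ w i) (A B : Matrix ι ι ℝ) (hA : ∀ i j, 0 ≤ A i j)
    (hA1 : ∀ i, ∑ j, A i j = 1) (hB : ∀ i j, 0 ≤ B i j) (hB1 : ∀ i, ∑ j, B i j = 1)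
    (hwB : ∀ j, ∑ i, w i * B i j = w j) (l : ℝ) (hl0 : 0 ≤ l) (hl1 : l ≤ 1)
    (hAB : B = (1 - l) • (1 : Matrix ι ι ℝ) + l • (A * B))
    (hBA : B = (1 - l) • (1 : Matrix ι ι ℝ) + l • (B * A)) :
    (∑ i, w i * (∑ ω, c ω * |phi (∑ j, B i j * f j ω) - f i ω|) ^ 2 ≤
      9 * ∑ i, ∑ j, w i * B i j * (∑ ω, c ω * |f i ω - f j ω|) ^ 2) ∧
    l * ∑ i, ∑ j, w i * A i j *
        (∑ ω, c ω * |phi (∑ k, B i k * f k ω) - phi (∑ k, B j k * f k ω)|) ^ 2 ≤
      18 * ((1 - l) * ∑ i, ∑ j, w i * B i j * (∑ ω, c ω * |f i ω - f j ω|) ^ 2) := by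
  let g : ι → ι → Ω → ℝ := fun a j ω => |f a ω - f j ω|
  let u : ι → ι → Ω → ℝ := fun a i ω => ∑ j, B i j * g a j ω
  have hg0 : ∀ a j ω, 0 ≤ g a j ω := fun a j ω => abs_nonneg _
  have hg1 : ∀ a j ω, g a j ω ≤ 1 := by
    intro a j ω
    rcases hf a ω with h | h <;> rcases hf j ω with h' | h' <;> simp [g, h, h']
  have hgsq : ∀ a j ω, g a j ω ^ 2 = g a j ω := by
    intro a j ω
    rcases hf a ω with h | h <;> rcases hf j ω with h' | h' <;> simp [g, h, h']
  have hu0 : ∀ a i ω, 0 ≤ u a i ω := fun a i ω =>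
    sum_nonneg fun j _ => mul_nonneg (hB i j) (hg0 a j ω)
  have hu1 : ∀ a i ω, u a i ω ≤ 1 := by
    intro a i ω
    calc u a i ω ≤ ∑ j, B i j := sum_le_sum fun j _ => by
          have := hB i j; have := hg1 a j ω; nlinarith
      _ = 1 := hB1 i
  have hu_zero : ∀ a i ω, f a ω = 0 → u a i ω = ∑ j, B i j * f j ω := by
    intro a i ω h
    refine sum_congr rfl fun j _ => ?_
    rcases hf j ω with h' | h' <;> simp [g, h, h']
  have hu_one : ∀ a i ω, f a ω = 1 → u a i ω = 1 - ∑ j, B i j * f j ω := by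
    intro a i ω h
    rw [← hB1 i, ← sum_sub_distrib]
    refine sum_congr rfl fun j _ => ?_
    rcases hf j ω with h' | h' <;> simp [g, h, h']
  constructor
  · rw [mul_sum]
    refine sum_le_sum fun i _ => ?_
    have h1 : ∑ ω, c ω * |phi (∑ j, B i j * f j ω) - f i ω| ≤
        3 * ∑ j, B i j * ∑ ω, c ω * |f i ω - f j ω| := by
      have : ∑ j, B i j * ∑ ω, c ω * |f i ω - f j ω| = ∑ ω, c ω * u i i ω := by
        simp only [u, g, mul_sum]
        rw [sum_comm]
        exact sum_congr rfl fun ω _ => sum_congr rfl fun j _ => by ring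
      rw [this, mul_sum]
      refine sum_le_sum fun ω _ => ?_
      have h2 : |phi (∑ j, B i j * f j ω) - f i ω| = |phi (u i i ω)| := by
        rcases hf i ω with h | h
        · rw [hu_zero i i ω h, h, sub_zero]
        · rw [hu_one i i ω h, h, phi_one_sub, abs_sub_comm]
      rw [h2]
      have := phi_le _ (hu0 i i ω) (hu1 i i ω)
      have := hc ω
      nlinarith
    have h0 : 0 ≤ ∑ ω, c ω * |phi (∑ j, B i j * f j ω) - f i ω| :=
      sum_nonneg fun ω _ => mul_nonneg (hc ω) (abs_nonneg _)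
    have h4 := pow_le_pow_left₀ h0 h1 2
    have h5 : (∑ j, B i j * ∑ ω, c ω * |f i ω - f j ω|) ^ 2 ≤
        (∑ j, B i j) * ∑ j, B i j * (∑ ω, c ω * |f i ω - f j ω|) ^ 2 := by
      refine sum_sq_le_sum_mul_sum_of_sq_eq_mul _ (fun j _ => hB i j)
        (fun j _ => mul_nonneg (hB i j) (sq_nonneg _)) fun j _ => by ring
    rw [hB1 i, one_mul] at h5
    have h6 : ∑ j, w i * B i j * (∑ ω, c ω * |f i ω - f j ω|) ^ 2 =
        w i * ∑ j, B i j * (∑ ω, c ω * |f i ω - f j ω|) ^ 2 := by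
      rw [mul_sum]; exact sum_congr rfl fun j _ => by ring
    rw [h6]
    have := hw i
    nlinarith
  · let e : ι → ι → ℝ := fun i j =>
      (∑ ω, c ω * |phi (∑ k, B i k * f k ω) - phi (∑ k, B j k * f k ω)|) ^ 2
    let h : ι → ι → ℝ := fun a i => (∑ ω, c ω * u a i ω ^ 2) ^ 2
    let d : ι → ι → ℝ := fun a i => (∑ ω, c ω * |f a ω - f i ω|) ^ 2
    have key : ∀ a i, ∑ j, (l * A i j) * e i j ≤
        18 * ((1 - l) * d a i + ∑ j, (l * A i j) * h a j - h a i) := by
      intro a i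
      have hb := bellman c hc (fun j => l * A i j) (fun j => mul_nonneg hl0 (hA i j)) (1 - l)
        (by linarith) (by rw [← mul_sum, hA1 i]; ring) (u a i) (g a i) (u a) (hu0 a i) (hu1 a i)
        (hu0 a) (hu1 a) (by
          intro ω
          have hB' : ∀ j, B i j = (1 - l) * (if i = j then 1 else 0) + l * ∑ k, A i k * B k j := by
            intro j
            conv_lhs => rw [hAB]
            simp [Matrix.mul_apply, Matrix.one_apply]
          simp only [u]
          rw [sum_congr rfl fun j _ => by rw [hB' j]]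
          simp only [add_mul, sum_add_distrib, mul_ite, mul_one, mul_zero, ite_mul, zero_mul,
            sum_ite_eq, mem_univ, if_true, mul_sum, sum_mul]
          congr 1
          rw [sum_comm]
          exact sum_congr rfl fun j _ => sum_congr rfl fun k _ => by ring)
      simp only [hgsq] at hb
      have he : ∀ j, e i j = (∑ ω, c ω * |phi (u a i ω) - phi (u a j ω)|) ^ 2 := by
        intro j
        simp only [e]
        congr 1
        refine sum_congr rfl fun ω _ => ?_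
        congr 1
        rcases hf a ω with h' | h'
        · rw [hu_zero a i ω h', hu_zero a j ω h']
        · rw [hu_one a i ω h', hu_one a j ω h', phi_one_sub, phi_one_sub, abs_sub_comm]
          congr 1; ring
      simp only [he]
      exact hb
    have hsum : ∑ a, ∑ i, w a * B a i * ∑ j, (l * A i j) * e i j ≤
        ∑ a, ∑ i, w a * B a i * (18 * ((1 - l) * d a i + ∑ j, (l * A i j) * h a j - h a i)) :=
      sum_le_sum fun a _ => sum_le_sum fun i _ =>
        mul_le_mul_of_nonneg_left (key a i) (mul_nonneg (hw a) (hB a i))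
    have lhs : ∑ a, ∑ i, w a * B a i * ∑ j, (l * A i j) * e i j =
        l * ∑ i, ∑ j, w i * A i j * e i j := by
      rw [sum_comm, mul_sum]
      refine sum_congr rfl fun i _ => ?_
      rw [← sum_mul, hwB i, mul_sum, mul_sum]
      exact sum_congr rfl fun j _ => by ring
    have htel : ∀ a, ∑ i, B a i * (∑ j, (l * A i j) * h a j - h a i) = - ((1 - l) * h a a) := by
      intro a
      have hB' : ∀ j, B a j = (1 - l) * (if a = j then 1 else 0) + l * ∑ k, B a k * A k j := by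
        intro j
        conv_lhs => rw [hBA]
        simp [Matrix.mul_apply, Matrix.one_apply]
      have e1 : ∑ i, B a i * h a i = (1 - l) * h a a + ∑ i, B a i * ∑ j, (l * A i j) * h a j := by
        rw [sum_congr rfl fun j _ => by rw [hB' j]]
        simp only [add_mul, sum_add_distrib, mul_ite, mul_one, mul_zero, ite_mul, zero_mul,
          sum_ite_eq, mem_univ, if_true, mul_sum, sum_mul]
        congr 1
        rw [sum_comm]
        exact sum_congr rfl fun j _ => sum_congr rfl fun k _ => by ring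
      simp only [mul_sub, sum_sub_distrib]
      rw [e1]; ring
    have rhs : ∑ a, ∑ i, w a * B a i * (18 * ((1 - l) * d a i + ∑ j, (l * A i j) * h a j - h a i)) =
        18 * ((1 - l) * ∑ a, ∑ i, w a * B a i * d a i) - 18 * ∑ a, w a * ((1 - l) * h a a) := by
      rw [mul_sum, mul_sum, mul_sum, ← sum_sub_distrib]
      refine sum_congr rfl fun a _ => ?_
      have := htel a
      have e2 : ∑ i, w a * B a i * (18 * ((1 - l) * d a i + ∑ j, (l * A i j) * h a j - h a i)) =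
          18 * ((1 - l) * ∑ i, w a * B a i * d a i) +
            18 * w a * ∑ i, B a i * (∑ j, (l * A i j) * h a j - h a i) := by
        rw [mul_sum, mul_sum, mul_sum, ← sum_add_distrib]
        exact sum_congr rfl fun i _ => by ring
      rw [e2, this]; ring
    rw [lhs, rhs] at hsum
    have hpos : 0 ≤ ∑ a, w a * ((1 - l) * h a a) :=
      sum_nonneg fun a _ => mul_nonneg (hw a) (mul_nonneg (by linarith) (sq_nonneg _))
    change l * ∑ i, ∑ j, w i * A i j * e i j ≤ 18 * ((1 - l) * ∑ a, ∑ i, w a * B a i * d a i)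
    linarith

/-- existence of the resolvent. -/
lemma exists_resolvent (w : ι → ℝ) (A : Matrix ι ι ℝ) (hA : ∀ i j, 0 ≤ A i j)
    (hA1 : ∀ i, ∑ j, A i j = 1) (hwA : ∀ j, ∑ i, w i * A i j = w j) (l : ℝ) (hl0 : 0 ≤ l)
    (hl1 : l < 1) :
    ∃ B : Matrix ι ι ℝ, (∀ i j, 0 ≤ B i j) ∧ (∀ i, ∑ j, B i j = 1) ∧
      (∀ j, ∑ i, w i * B i j = w j) ∧ B = (1 - l) • (1 : Matrix ι ι ℝ) + l • (A * B) ∧
      B = (1 - l) • (1 : Matrix ι ι ℝ) + l • (B * A) := by
  set M : Matrix ι ι ℝ := 1 - l • A with hM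
  have hmin : ∀ v : ι → ℝ, (∀ i, 0 ≤ M.mulVec v i) → ∀ i, 0 ≤ v i := by
    intro v hv i
    obtain ⟨i0, -, hi0⟩ := exists_min_image univ v ⟨i, mem_univ i⟩
    have h1 := hv i0
    have h2 : M.mulVec v i0 = v i0 - l * ∑ j, A i0 j * v j := by
      rw [hM, Matrix.sub_mulVec, Matrix.one_mulVec, Matrix.smul_mulVec]
      simp [Matrix.mulVec, dotProduct]
    have h3 : v i0 ≤ ∑ j, A i0 j * v j := by
      calc v i0 = ∑ j, A i0 j * v i0 := by rw [← sum_mul, hA1, one_mul]
        _ ≤ _ := sum_le_sum fun j _ => mul_le_mul_of_nonneg_left (hi0 j (mem_univ _)) (hA _ _)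
    have h4 : 0 ≤ v i0 := by
      by_contra hneg
      push Not at hneg
      nlinarith
    exact h4.trans (hi0 i (mem_univ _))
  have hinj : Function.Injective M.mulVec := by
    intro v v' hvv
    have h1 : M.mulVec (v - v') = 0 := by rw [Matrix.mulVec_sub, hvv, sub_self]
    have h2 : M.mulVec (v' - v) = 0 := by rw [Matrix.mulVec_sub, hvv, sub_self]
    funext i
    have a1 := hmin _ (fun i => by rw [h1]; rfl) i
    have a2 := hmin _ (fun i => by rw [h2]; rfl) i
    simp only [Pi.sub_apply] at a1 a2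
    linarith
  have hunit : IsUnit M := Matrix.mulVec_injective_iff_isUnit.mp hinj
  obtain ⟨U, hU⟩ := hunit
  set N : Matrix ι ι ℝ := ↑U⁻¹ with hN
  have hMN : M * N = 1 := by rw [← hU, hN]; exact U.mul_inv
  have hNM : N * M = 1 := by rw [← hU, hN]; exact U.inv_mul
  have hAB : (1 - l) • N = (1 - l) • (1 : Matrix ι ι ℝ) + l • (A * ((1 - l) • N)) := by
    rw [← hMN, hM]
    simp only [sub_mul, one_mul, smul_sub, Matrix.smul_mul, Matrix.mul_smul, smul_smul]
    module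
  have hBA : (1 - l) • N = (1 - l) • (1 : Matrix ι ι ℝ) + l • (((1 - l) • N) * A) := by
    rw [← hNM, hM]
    simp only [mul_sub, mul_one, smul_sub, Matrix.smul_mul, Matrix.mul_smul, smul_smul]
    module
  have hl : 0 < 1 - l := by linarith
  refine ⟨(1 - l) • N, ?_, ?_, ?_, hAB, hBA⟩
  · intro i j
    have := hmin (fun k => N k j) (fun k => by
      have : M.mulVec (fun k => N k j) k = (M * N) k j := by
        simp [Matrix.mulVec, dotProduct, Matrix.mul_apply]
      rw [this, hMN, Matrix.one_apply]; split_ifs <;> norm_num) i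
    simp only [Matrix.smul_apply, smul_eq_mul]
    exact mul_nonneg hl.le this
  · intro i
    have h1 : M.mulVec (fun _ => 1) = fun _ => 1 - l := by
      funext k
      rw [hM, Matrix.sub_mulVec, Matrix.one_mulVec, Matrix.smul_mulVec]
      simp [Matrix.mulVec, dotProduct, hA1]
    have h2 : N.mulVec (M.mulVec (fun _ => 1)) = fun _ => 1 := by
      rw [Matrix.mulVec_mulVec, hNM, Matrix.one_mulVec]
    rw [h1] at h2
    have h3 := congrFun h2 i
    simp only [Matrix.mulVec, dotProduct] at h3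
    simp only [Matrix.smul_apply, smul_eq_mul]
    refine Eq.trans ?_ h3; exact sum_congr rfl fun j _ => by ring
  · intro j
    have h1 : Matrix.vecMul w M = fun k => (1 - l) * w k := by
      funext k
      have := hwA k
      simp only [hM, Matrix.vecMul_sub, Matrix.vecMul_one, Pi.sub_apply]
      simp only [Matrix.vecMul, dotProduct, Matrix.smul_apply, smul_eq_mul]
      have e : ∑ x, w x * (l * A x k) = l * ∑ x, w x * A x k := by
        rw [mul_sum]; exact sum_congr rfl fun _ _ => by ring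
      rw [e, this]; ring
    have h2 : Matrix.vecMul (Matrix.vecMul w M) N = w := by
      rw [Matrix.vecMul_vecMul, hMN, Matrix.vecMul_one]
    rw [h1] at h2
    have h3 := congrFun h2 j
    simp only [Matrix.vecMul, dotProduct] at h3
    simp only [Matrix.smul_apply, smul_eq_mul]
    rw [← h3]; exact sum_congr rfl fun i _ => by ring

end core

end Crest.Agent.H4Cotype
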