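import Mathlib

set_option autoImplicit false

namespace Crest.Agent.H4Cotype

open Finset

section res

variable {ι : Type*} [Fintype ι] [DecidableEq ι]

/-- quadratic cost of a kernel -/
def Qc (w : ι → ℝ) (d : ι → ι → ℝ) (P : Matrix ι ι ℝ) : ℝ := ∑ i, ∑ j, w i * P i j * d i j ^ 2

lemma Qc_add (w : ι → ℝ) (d : ι → ι → ℝ) (P P' : Matrix ι ι ℝ) :
    Qc w d (P + P') = Qc w d P + Qc w d P' := by
  simp only [Qc, Matrix.add_apply, ← sum_add_distrib]
  exact sum_congr rfl fun i _ => sum_congr rfl fun j _ => by ring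

lemma Qc_smul (w : ι → ℝ) (d : ι → ι → ℝ) (a : ℝ) (P : Matrix ι ι ℝ) :
    Qc w d (a • P) = a * Qc w d P := by
  simp only [Qc, Matrix.smul_apply, smul_eq_mul, mul_sum]
  exact sum_congr rfl fun i _ => sum_congr rfl fun j _ => by ring

lemma Qc_sum (w : ι → ℝ) (d : ι → ι → ℝ) (s : Finset ℕ) (P : ℕ → Matrix ι ι ℝ) :
    Qc w d (∑ r ∈ s, P r) = ∑ r ∈ s, Qc w d (P r) := by
  classical
  induction s using Finset.induction_on with
  | empty => simp [Qc]
  | insert a s ha ih => rw [sum_insert ha, sum_insert ha, Qc_add, ih]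

lemma Qc_nonneg (w : ι → ℝ) (hw : ∀ i, 0 ≤ w i) (d : ι → ι → ℝ) (P : Matrix ι ι ℝ)
    (hP : ∀ i j, 0 ≤ P i j) : 0 ≤ Qc w d P :=
  sum_nonneg fun i _ => sum_nonneg fun j _ => mul_nonneg (mul_nonneg (hw i) (hP i j)) (sq_nonneg _)

lemma Qc_one (w : ι → ℝ) (d : ι → ι → ℝ) (hd : ∀ i, d i i = 0) : Qc w d 1 = 0 := by
  refine sum_eq_zero fun i _ => sum_eq_zero fun j _ => ?_
  by_cases h : i = j
  · subst h; simp [hd]
  · simp [Matrix.one_apply, h]

lemma Qc_mul (w : ι → ℝ) (hw : ∀ i, 0 ≤ w i) (d : ι → ι → ℝ) (hd0 : ∀ i j, 0 ≤ d i j)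
    (htri : ∀ i j k, d i k ≤ d i j + d j k) (P P' : Matrix ι ι ℝ)
    (hP : ∀ i j, 0 ≤ P i j) (hP' : ∀ i j, 0 ≤ P' i j) (hP'1 : ∀ i, ∑ j, P' i j = 1)
    (hwP : ∀ j, ∑ i, w i * P i j = w j) :
    Qc w d (P * P') ≤ 7 * Qc w d P + 7 / 6 * Qc w d P' := by
  have h1 : Qc w d (P * P') = ∑ i, ∑ j, ∑ k, w i * P i j * P' j k * d i k ^ 2 := by
    simp only [Qc, Matrix.mul_apply, mul_sum, sum_mul]
    refine sum_congr rfl fun i _ => ?_
    rw [sum_comm]
    exact sum_congr rfl fun j _ => sum_congr rfl fun k _ => by ring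
  have h2 : Qc w d P = ∑ i, ∑ j, ∑ k, w i * P i j * P' j k * d i j ^ 2 := by
    refine sum_congr rfl fun i _ => sum_congr rfl fun j _ => ?_
    calc w i * P i j * d i j ^ 2 = w i * P i j * d i j ^ 2 * ∑ k, P' j k := by rw [hP'1, mul_one]
      _ = _ := by rw [mul_sum]; exact sum_congr rfl fun k _ => by ring
  have h3 : Qc w d P' = ∑ i, ∑ j, ∑ k, w i * P i j * P' j k * d j k ^ 2 := by
    rw [sum_comm]
    refine sum_congr rfl fun j _ => ?_
    rw [sum_comm]
    refine sum_congr rfl fun k _ => ?_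
    rw [← hwP j, sum_mul, sum_mul]
  rw [h1, h2, h3, mul_sum, mul_sum, ← sum_add_distrib]
  refine sum_le_sum fun i _ => ?_
  rw [mul_sum, mul_sum, ← sum_add_distrib]
  refine sum_le_sum fun j _ => ?_
  rw [mul_sum, mul_sum, ← sum_add_distrib]
  refine sum_le_sum fun k _ => ?_
  have ha : 0 ≤ w i * P i j * P' j k := mul_nonneg (mul_nonneg (hw i) (hP i j)) (hP' j k)
  have hb : d i k ^ 2 ≤ 7 * d i j ^ 2 + 7 / 6 * d j k ^ 2 := by
    have := pow_le_pow_left₀ (hd0 i k) (htri i j k) 2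
    nlinarith [sq_nonneg (6 * d i j - d j k)]
  nlinarith

lemma pow_nonneg' (A : Matrix ι ι ℝ) (hA : ∀ i j, 0 ≤ A i j) (s : ℕ) : ∀ i j, 0 ≤ (A ^ s) i j := by
  induction s with
  | zero => intro i j; simp only [pow_zero, Matrix.one_apply]; split_ifs <;> norm_num
  | succ s ih =>
    intro i j
    rw [pow_succ, Matrix.mul_apply]
    exact sum_nonneg fun k _ => mul_nonneg (ih i k) (hA k j)

lemma pow_stat (w : ι → ℝ) (A : Matrix ι ι ℝ) (hwA : ∀ j, ∑ i, w i * A i j = w j) (s : ℕ) :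
    ∀ j, ∑ i, w i * (A ^ s) i j = w j := by
  induction s with
  | zero => intro j; simp [Matrix.one_apply]
  | succ s ih =>
    intro j
    simp only [pow_succ, Matrix.mul_apply, mul_sum]
    rw [sum_comm, ← hwA j]
    refine sum_congr rfl fun k _ => ?_
    rw [← ih k, sum_mul]
    exact sum_congr rfl fun i _ => by ring

lemma resolvent_le (w : ι → ℝ) (hw : ∀ i, 0 ≤ w i) (d : ι → ι → ℝ) (hd0 : ∀ i j, 0 ≤ d i j)
    (hdd : ∀ i, d i i = 0) (htri : ∀ i j k, d i k ≤ d i j + d j k) (A B : Matrix ι ι ℝ)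
    (hA : ∀ i j, 0 ≤ A i j) (hwA : ∀ j, ∑ i, w i * A i j = w j)
    (hB : ∀ i j, 0 ≤ B i j) (hB1 : ∀ i, ∑ j, B i j = 1) (t : ℕ) (ht : 1 ≤ t) (l : ℝ)
    (hl : l = t / (t + 1))
    (hAB : B = (1 - l) • (1 : Matrix ι ι ℝ) + l • (A * B)) :
    Qc w d B ≤ 64 * Qc w d ((1 / (t : ℝ)) • ∑ s ∈ Finset.Icc 1 t, A ^ s) := by
  have ht0 : (0 : ℝ) < t := by exact_mod_cast ht
  have hl0 : 0 ≤ l := by rw [hl]; positivity
  have hl1 : l ≤ 1 := by rw [hl, div_le_one (by positivity)]; linarith
  have h1l : 1 - l = 1 / (t + 1) := by rw [hl]; field_simp; ring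
  have hexp : ∀ s : ℕ, B = (1 - l) • ∑ r ∈ range s, l ^ r • A ^ r + l ^ s • (A ^ s * B) := by
    intro s
    induction s with
    | zero => simp
    | succ s ih =>
      rw [sum_range_succ]
      conv_lhs => rw [ih]
      conv_lhs => rw [hAB]
      simp only [mul_add, Matrix.mul_smul, mul_one, pow_succ, mul_assoc]
      module
  set D : ℕ → ℝ := fun s => Qc w d (A ^ s) with hD
  have hD0 : ∀ s, 0 ≤ D s := fun s => Qc_nonneg w hw d _ (pow_nonneg' A hA s)
  set X := Qc w d B with hX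
  have hX0 : 0 ≤ X := Qc_nonneg w hw d _ hB
  set T := ∑ s ∈ Icc 1 t, D s with hT
  have hT0 : 0 ≤ T := sum_nonneg fun s _ => hD0 s
  have hstep : ∀ s ∈ Icc 1 t, X ≤ T / t + 7 * D s + 7 / 6 * X * l ^ s := by
    intro s hs
    have hs' := mem_Icc.mp hs
    have e1 : X = (1 - l) * ∑ r ∈ range s, l ^ r * D r + l ^ s * Qc w d (A ^ s * B) := by
      conv_lhs => rw [hX, hexp s]
      rw [Qc_add, Qc_smul, Qc_smul, Qc_sum]
      simp only [Qc_smul, hD]
    have e2 : ∑ r ∈ range s, l ^ r * D r ≤ T := by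
      calc ∑ r ∈ range s, l ^ r * D r ≤ ∑ r ∈ range s, D r :=
            sum_le_sum fun r _ => by
              have := pow_le_one₀ (n := r) hl0 hl1
              have := hD0 r
              nlinarith
        _ ≤ ∑ r ∈ insert 0 (Icc 1 t), D r :=
            sum_le_sum_of_subset_of_nonneg (fun r hr => by
              simp only [mem_range, mem_insert, mem_Icc] at hr ⊢; omega) fun r _ _ => hD0 r
        _ = T := by
            rw [sum_insert (by simp)]
            have : D 0 = 0 := by simp only [hD, pow_zero]; exact Qc_one w d hdd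
            rw [this, zero_add]
    have e3 := Qc_mul w hw d hd0 htri (A ^ s) B (pow_nonneg' A hA s) hB hB1 (pow_stat w A hwA s)
    have e4 : (1 - l) * ∑ r ∈ range s, l ^ r * D r ≤ T / t := by
      calc (1 - l) * ∑ r ∈ range s, l ^ r * D r ≤ (1 - l) * T :=
            mul_le_mul_of_nonneg_left e2 (by linarith)
        _ ≤ T / t := by
            rw [h1l, one_div, mul_comm, ← div_eq_mul_inv]
            exact div_le_div_of_nonneg_left hT0 ht0 (by linarith)
    have e5 : 0 ≤ l ^ s := pow_nonneg hl0 s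
    have e6 : l ^ s ≤ 1 := pow_le_one₀ hl0 hl1
    have e7 : l ^ s * Qc w d (A ^ s * B) ≤ l ^ s * (7 * D s + 7 / 6 * X) :=
      mul_le_mul_of_nonneg_left e3 e5
    have := hD0 s
    nlinarith
  have hgeom : ∀ m : ℕ, ∑ s ∈ Icc 1 m, l ^ s = t * (1 - l ^ m) := by
    intro m
    induction m with
    | zero => simp
    | succ m ih =>
      rw [Finset.sum_Icc_succ_top (by omega), ih, pow_succ]
      have : l * (t + 1) = t := by rw [hl]; field_simp
      have h2 : l ^ m * (l * (t + 1)) = l ^ m * t := by rw [this]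
      nlinarith
  have hlt : 1 / 3 ≤ l ^ t := by
    have h1 : (1 + 1 / (t : ℝ)) ^ t ≤ 3 := by
      calc (1 + 1 / (t : ℝ)) ^ t ≤ (Real.exp (1 / t)) ^ t := by
            apply pow_le_pow_left₀ (by positivity)
            rw [add_comm]; exact Real.add_one_le_exp _
        _ = Real.exp 1 := by rw [← Real.exp_nat_mul]; congr 1; field_simp
        _ ≤ 3 := by linarith [Real.exp_one_lt_d9]
    have h2 : l * (1 + 1 / (t : ℝ)) = 1 := by rw [hl]; field_simp
    have h3 : l ^ t * (1 + 1 / (t : ℝ)) ^ t = 1 := by rw [← mul_pow, h2, one_pow]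
    have e5 : 0 ≤ l ^ t := pow_nonneg hl0 t
    nlinarith
  have hsum := sum_le_sum hstep
  rw [sum_const, Nat.card_Icc, sum_add_distrib, sum_add_distrib, sum_const, Nat.card_Icc,
    ← mul_sum, ← mul_sum, hgeom, ← hT] at hsum
  simp only [add_tsub_cancel_right, nsmul_eq_mul] at hsum
  rw [Qc_smul, Qc_sum]
  change X ≤ 64 * (1 / t * T)
  have e1 : (t : ℝ) * (T / t) = T := by field_simp
  rw [e1] at hsum
  have e2 : 7 / 6 * X * (t * (1 - l ^ t)) ≤ 7 / 9 * (t * X) := by
    have : 0 ≤ t * X := mul_nonneg ht0.le hX0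
    nlinarith
  have e3 : t * X ≤ 64 * T := by linarith
  rw [one_div, ← mul_assoc, mul_comm 64, mul_assoc, ← div_eq_inv_mul, le_div_iff₀ ht0]
  linarith

end res

section cuts

open MeasureTheory

variable {ι : Type*} [Fintype ι] [DecidableEq ι]

/-- indicator -/
def chi (S : Finset ι) (i : ι) : ℝ := if i ∈ S then 1 else 0

/-- mass of a cut of a real family -/
noncomputable def cutMass (a : ι → ℝ) (S : Finset ι) : ℝ := by
  classical
  exact if (∃ i j, i ∈ S ∧ j ∉ S) then volume.real {θ : ℝ | ∀ i, θ < a i ↔ i ∈ S} else 0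

lemma cutMass_nonneg (a : ι → ℝ) (S : Finset ι) : 0 ≤ cutMass a S := by
  unfold cutMass; split_ifs
  · exact measureReal_nonneg
  · exact le_rfl

lemma sum_cutMass (a : ι → ℝ) (i j : ι) :
    ∑ S : Finset ι, chi S i * (1 - chi S j) * cutMass a S = max (a i - a j) 0 := by
  classical
  have h1 : ∑ S : Finset ι, chi S i * (1 - chi S j) * cutMass a S =
      ∑ S ∈ univ.filter (fun S : Finset ι => i ∈ S ∧ j ∉ S),
        volume.real {θ : ℝ | ∀ i, θ < a i ↔ i ∈ S} := by
    rw [sum_filter]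
    refine sum_congr rfl fun S _ => ?_
    by_cases hi : i ∈ S <;> by_cases hj : j ∈ S <;> simp [chi, hi, hj]
    unfold cutMass
    rw [if_pos ⟨i, j, hi, hj⟩]
  have hmeas : ∀ S : Finset ι, MeasurableSet {θ : ℝ | ∀ i, θ < a i ↔ i ∈ S} := by
    intro S
    rw [Set.setOf_forall]
    refine MeasurableSet.iInter fun k => ?_
    by_cases hk : k ∈ S
    · simp only [hk, iff_true]; exact measurableSet_Iio
    · simp only [hk, iff_false, not_lt]; exact measurableSet_Ici
  have hU : (⋃ S ∈ univ.filter (fun S : Finset ι => i ∈ S ∧ j ∉ S),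
      {θ : ℝ | ∀ i, θ < a i ↔ i ∈ S}) = Set.Ico (a j) (a i) := by
    ext θ
    simp only [mem_filter, mem_univ, true_and, Set.mem_iUnion, Set.mem_setOf_eq, Set.mem_Ico,
      exists_prop]
    constructor
    · rintro ⟨S, ⟨hi, hj⟩, h⟩
      exact ⟨not_lt.mp fun h' => hj ((h j).mp h'), (h i).mpr hi⟩
    · rintro ⟨h1, h2⟩
      exact ⟨univ.filter fun k => θ < a k, ⟨by simpa using h2, by simpa using h1⟩, by simp⟩
  rw [h1, ← measureReal_biUnion_finset ?_ ?_ ?_, hU, Real.volume_real_Ico]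
  · intro S _ S' _ hne
    refine Set.disjoint_left.mpr fun θ h h' => hne ?_
    ext k
    exact (h k).symm.trans (h' k)
  · intro S _; exact hmeas S
  · intro S hS
    refine ne_top_of_le_ne_top (b := volume (Set.Ico (a j) (a i))) (by simp) (measure_mono ?_)
    rw [← hU]
    exact Set.subset_biUnion_of_mem (u := fun S : Finset ι => {θ : ℝ | ∀ i, θ < a i ↔ i ∈ S}) hS

lemma sum_cutMass_sub (a : ι → ℝ) (i j : ι) :
    ∑ S : Finset ι, (chi S i - chi S j) * cutMass a S = a i - a j := by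
  have h1 := sum_cutMass a i j
  have h2 := sum_cutMass a j i
  have : ∑ S : Finset ι, (chi S i - chi S j) * cutMass a S =
      ∑ S : Finset ι, chi S i * (1 - chi S j) * cutMass a S -
        ∑ S : Finset ι, chi S j * (1 - chi S i) * cutMass a S := by
    rw [← sum_sub_distrib]; exact sum_congr rfl fun S _ => by ring
  rw [this, h1, h2]
  rcases le_total (a i) (a j) with h | h
  · rw [max_eq_right (by linarith), max_eq_left (by linarith)]; ring
  · rw [max_eq_left (by linarith), max_eq_right (by linarith)]; ring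

lemma sum_cutMass_abs (a : ι → ℝ) (i j : ι) :
    ∑ S : Finset ι, |chi S i - chi S j| * cutMass a S = |a i - a j| := by
  have h1 := sum_cutMass a i j
  have h2 := sum_cutMass a j i
  have : ∑ S : Finset ι, |chi S i - chi S j| * cutMass a S =
      ∑ S : Finset ι, chi S i * (1 - chi S j) * cutMass a S +
        ∑ S : Finset ι, chi S j * (1 - chi S i) * cutMass a S := by
    rw [← sum_add_distrib]
    refine sum_congr rfl fun S _ => ?_
    by_cases hi : i ∈ S <;> by_cases hj : j ∈ S <;> simp [chi, hi, hj]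
  rw [this, h1, h2]
  rcases le_total (a i) (a j) with h | h
  · rw [max_eq_right (by linarith), max_eq_left (by linarith), abs_of_nonpos (by linarith)]; ring
  · rw [max_eq_left (by linarith), max_eq_right (by linarith), abs_of_nonneg (by linarith)]; ring

lemma l1_hasSum (z : lp (fun _ : ℕ => ℝ) 1) : HasSum (fun k => |z k|) ‖z‖ := by
  have := lp.hasSum_norm (p := 1) (by simp) z
  simpa using this

lemma exists_cut_decomp (x : ι → lp (fun _ : ℕ => ℝ) 1) :
    ∃ v : Finset ι → lp (fun _ : ℕ => ℝ) 1,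
      (∀ i j, x i - x j = ∑ S, (chi S i - chi S j) • v S) ∧
      (∀ i j, ‖x i - x j‖ = ∑ S, ‖v S‖ * |chi S i - chi S j|) := by
  have hmem : ∀ S : Finset ι, Memℓp (fun k : ℕ => cutMass (fun i => x i k) S) 1 := by
    intro S
    apply memℓp_gen
    simp only [ENNReal.toReal_one, Real.rpow_one, Real.norm_eq_abs]
    by_cases h : ∃ i j, i ∈ S ∧ j ∉ S
    · obtain ⟨i, j, hi, hj⟩ := h
      refine Summable.of_nonneg_of_le (fun k => abs_nonneg _) (fun k => ?_)
        (l1_hasSum (x i - x j)).summable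
      rw [abs_of_nonneg (cutMass_nonneg _ _)]
      have h1 := sum_cutMass_abs (fun i => x i k) i j
      have h2 := single_le_sum (f := fun S : Finset ι =>
        |chi S i - chi S j| * cutMass (fun i => x i k) S)
        (fun S _ => mul_nonneg (abs_nonneg _) (cutMass_nonneg _ _)) (mem_univ S)
      rw [h1] at h2
      simpa [chi, hi, hj] using h2
    · have : ∀ k : ℕ, cutMass (fun i => x i k) S = 0 := fun k => by
        unfold cutMass; rw [if_neg h]
      simp [this, summable_zero]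
  refine ⟨fun S => ⟨_, hmem S⟩, fun i j => ?_, fun i j => ?_⟩
  · ext k
    rw [lp.coeFn_sum, Finset.sum_apply]
    simp only [lp.coeFn_sub, Pi.sub_apply, lp.coeFn_smul, Pi.smul_apply, smul_eq_mul]
    exact (sum_cutMass_sub (fun i => x i k) i j).symm
  · have h1 := l1_hasSum (x i - x j)
    have h2 : HasSum (fun k => ∑ S : Finset ι,
        |cutMass (fun i => x i k) S| * |chi S i - chi S j|)
        (∑ S, ‖(⟨_, hmem S⟩ : lp (fun _ : ℕ => ℝ) 1)‖ * |chi S i - chi S j|) :=
      hasSum_sum fun S _ => (l1_hasSum ⟨_, hmem S⟩).mul_right _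
    refine h1.unique ?_
    convert h2 using 2 with k
    simp only [lp.coeFn_sub, Pi.sub_apply]
    rw [← sum_cutMass_abs (fun i => x i k) i j]
    refine sum_congr rfl fun S _ => ?_
    rw [abs_of_nonneg (cutMass_nonneg _ _), mul_comm]

end cuts

end Crest.Agent.H4Cotype
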